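import Crest.Agent.X262.End95.Cl
import Crest.Agent.X262.Geo.Adj
import Crest.Agent.X277.Unf.Main

/-!
# Row 262, BND (helper79): discrepancies over a centre of codimension two

* `sol_tm`   : the discrepancies of a terminal model solve the linear system of the slice;
* `car2`, `car2Stmt` : they are at least one;
* `j1`, `j1Stmt` : a terminal extraction over a centre of codimension two is the blow-up.
-/

set_option autoImplicit false
set_option linter.unusedSectionVars false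
set_option linter.style.haveILetI false

open scoped KaehlerDifferential

noncomputable section

namespace Crest.Agent.X262.Bnd79

open Crest.Agent.X277 Crest.Agent.X277.Lef Crest.Agent.X277.BD Crest.Agent.X277.Pst
open Crest.Agent.X277.BD.Br (On oP kP)
open Crest.Agent.X277.BD.Cyc (Rf plV)
open Crest.Agent.X262.Mod Crest.Agent.X262.Sark Crest.Agent.X262.Bnd
open Crest.Agent.X262.Geo Crest.Agent.X262.Loc Crest.Agent.X262.Slc57 Crest.Agent.X262.End95
open List (replicate)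
open Finset

variable {K : Type} [Field K] [Algebra ℂ K] [Algebra.EssFiniteType ℂ K] {n d : ℕ} {b : Bs n K}
  {Q : PModel ℂ K} {H : BD ℂ K} {V E : RZ ℂ K}

theorem on_of_car (h : H ∈ On Q) {a : BD ℂ K} (ha : Car H a) : a ∈ On Q :=
  car_iff_On.1 ((car_of_On h).trans Br.free_oP ha)

theorem od_κ_eq (U : TM b) (hV : Prm (oP Q) V) (h : Prm U.H V) :
    od V (U.κ - U.r • kP Q b) = 0 := by
  rw [map_sub, sub_eq_zero]
  exact (od_eq_iff hV.dvs).2 (U.κ_eq Q V hV h)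

theorem od_κ_lt (U : TM b) (hV : Prm (oP Q) V) (h : ¬ Prm U.H V) :
    od V (U.κ - U.r • kP Q b) < 0 := by
  rw [map_sub, sub_neg]
  exact (od_lt_iff hV.dvs).2 (U.κ_lt Q V hV h)

theorem dsc_neg (U : TM b) (hV : Prm (oP Q) V) (h : ¬ Prm U.H V) :
    (od V (U.κ - U.r • kP Q b) : ℚ) / U.r < 0 :=
  div_neg_of_neg_of_pos (by exact_mod_cast od_κ_lt U hV h) (by exact_mod_cast U.r_pos)

variable (b) in
/-- the configuration of the slice -/
abbrev cg (hH : IsMod H) (hP : H ∈ On Q) (hd : dim ℂ K = d + 2) : Cfg (RZ ℂ K) :=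
  cfg hH hP hd (Br.kP_mem b) (adjAt b hH.free hP hd)

section Sol

variable (hH : IsMod H) (hP : H ∈ On Q) (hd : dim ℂ K = d + 2) {G : BD ℂ K} (hG : IsMod G)
  (hc : Car G H) (hQ : G ∈ On Q) {t : Finset (RZ ℂ K)}
  (ht : ∀ V, V ∈ t ↔ V ∈ (cg b hH hP hd).s ∧ ¬ Prm G V)
include hG hc hQ ht

open Classical in
/-- pull-backs from a model above the `H`-model -/
theorem ev_car {a a' : BD ℂ K} (ha : a ∈ On Q) (ha' : Car G a') {m : ℕ} (hm : 0 < m)
    (h : EqOn G a' (m • a)) (hV : Prm (oP Q) V) :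
    (cg b hH hP hd).ev t (fun W => dg W (a :: replicate d H))
      (fun W => od W (a' - m • a) / m) V = dg V (a' :: replicate d H) / m := by
  refine cfg_ev hH hP hd _ _ ha (on_of_car hQ ha') hm hV fun W h1 h2 h3 => ?_
  have h4 : ¬ Prm G W := fun h4 => h2 (by
    rw [map_sub, sub_eq_zero]
    exact (od_eq_iff h1.dvs).2 (h W h4))
  exact (ht W).2 ⟨mem_ex2_of_mt hH hP hd (fun h5 => h4 (hc.prm h5)) h3, h4⟩

open Classical in
theorem sol_car {a a' : BD ℂ K} (ha : a ∈ On Q) (ha' : Car G a') {m : ℕ} (hm : 0 < m)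
    (h : EqOn G a' (m • a)) :
    (cg b hH hP hd).Sol t (fun W => dg W (a :: replicate d H))
      (fun W => od W (a' - m • a) / m) := fun V hV => by
  obtain ⟨h1, h2⟩ := (ht V).1 hV
  have h3 := ((mem_cfg hH hP hd _ _).1 h1).1
  rw [ev_car hH hP hd hG hc hQ ht ha ha' hm h h3, Geo.dg_car hG.free h3.dvs h2
    (List.forall_mem_cons.2 ⟨ha', all_rp hc d⟩), Int.cast_zero, zero_div]

end Sol

theorem eqOn_κ (U : TM b) (hQ : U.H ∈ On Q) : EqOn U.H U.κ (U.r • kP Q b) := fun V hV =>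
  U.κ_eq Q V ((car_of_On hQ).prm hV) hV

open Classical in
/-- the discrepancies of a terminal model above the `H`-model -/
theorem sol_tm (hH : IsMod H) (hP : H ∈ On Q) (hd : dim ℂ K = d + 2) (U : TM b) (hc : Car U.H H)
    (hQ : U.H ∈ On Q) {t : Finset (RZ ℂ K)}
    (ht : ∀ V, V ∈ t ↔ V ∈ (cg b hH hP hd).s ∧ ¬ Prm U.H V) :
    (cg b hH hP hd).Sol t (fun j => (cg b hH hP hd).k j)
      fun W => od W (U.κ - U.r • kP Q b) / U.r :=
  (sol_car hH hP hd U.mod hc hQ ht (Br.kP_mem b) U.car U.r_pos (eqOn_κ U hQ)).congr fun j hj => by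
    rw [cfg_k hH hP hd _ _ ((mem_cfg hH hP hd _ _).1 ((ht j).1 hj).1).1]

/-- discrepancies over a centre of codimension two are at least one -/
theorem car2 (hd : dim ℂ K = d + 2) (U : TM b) (W : PModel ℂ K) (hV : Prm (oP W) V)
    (h : dim ℂ (cen U.H V) = d) : (U.r : ℤ) ≤ od V (U.r • kP W b - U.κ) := by
  classical
  obtain ⟨Q, h1, h2⟩ := Unf.exists_on_ge W {U.H}
  have hP := h2 _ (mem_singleton_self _)
  have h3 := prm_up (h1 Br.oP_mem) hV
  have h4 : ¬ Prm U.H V := fun h4 => by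
    have := (prm_iff_dim_cen U.mod hV.dvs).1 h4
    omega
  have h5 := (sol_tm U.mod hP hd U (car_self U.mod.free) hP (t := (cg b U.mod hP hd).s)
    fun V => ⟨fun h => ⟨h, ((mem_cfg U.mod hP hd _ _).1 h).2.1⟩, fun h => h.1⟩).le_neg_one
    Subset.rfl (fun i hi => dsc_neg U ((mem_cfg U.mod hP hd _ _).1 hi).1
      ((mem_cfg U.mod hP hd _ _).1 hi).2.1) V ((mem_cfg U.mod hP hd _ _).2 ⟨h3, h4, h⟩)
  rw [div_le_iff₀ (by exact_mod_cast U.r_pos)] at h5
  have h6 : od V (U.κ - U.r • kP Q b) ≤ -1 * U.r := by exact_mod_cast h5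
  rw [map_sub, map_nsmul, ← od_kP_eq hV h3] at h6
  rw [map_sub, map_nsmul]
  omega

theorem car2Stmt : Car2Stmt := fun _ _ _ _ b U W _ hV h =>
  car2 (d := 2) (dim_basis b) U W hV (dim_ctr U.mod.free hV.dvs ▸ h)

/-- a terminal extraction over a centre of codimension two -/
theorem j1 (hd : dim ℂ K = d + 2) {Z Y : TM b} (hx : Ext Z Y E) (h : dim ℂ (cen Y.H E) = d) :
    (∃ t : Rf E, Transcendental (cen Y.H E) t ∧ IntermediateField.adjoin (cen Y.H E) {t} = ⊤) ∧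
      dg E (Z.κ :: replicate d Y.H) = -(Z.r * dlV Y.H E) ∧
      od E (Y.r • Z.κ - Z.r • Y.κ) = (Y.r * Z.r : ℕ) := by
  classical
  obtain ⟨Q, h2⟩ := Unf.exists_on {Z.H}
  have hQ := h2 _ (mem_singleton_self _)
  have hP := on_of_car hQ hx.car
  have hZE : Prm Z.H E := (hx.prm E).2 (Or.inr rfl)
  have hE := (car_of_On hQ).prm hZE
  haveI := essFT_Rf hE.dvs
  have hm := fun V => mem_cfg (V := V) Y.mod hP hd (Br.kP_mem b) (adjAt b Y.mod.free hP hd)
  have he : E ∈ (cg b Y.mod hP hd).s := (hm E).2 ⟨hE, hx.nE, h⟩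
  have ht : ∀ V, V ∈ (cg b Y.mod hP hd).s.erase E ↔ V ∈ (cg b Y.mod hP hd).s ∧ ¬ Prm Z.H V :=
    fun V => by
      rw [mem_erase, hx.prm, not_or]
      exact ⟨fun h => ⟨h.2, ((hm V).1 h.2).2.1, h.1⟩, fun h => ⟨h.2.2, h.1⟩⟩
  have hZ := sol_tm Y.mod hP hd Z hx.car hQ ht
  have hY := sol_tm Y.mod hP hd Y (car_self Y.mod.free) hP (t := (cg b Y.mod hP hd).s)
    fun V => ⟨fun h => ⟨h, ((hm V).1 h).2.1⟩, fun h => h.1⟩
  obtain ⟨m, hm0, ε, hε, hε'⟩ := Z.qf (dv Q E)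
  have hM := (sol_car Y.mod hP hd Z.mod hx.car hQ ht (dv_mem E) hε hm0 hε').congr
    (u' := fun j => (cg b Y.mod hP hd).M j E) fun j hj => by
      rw [cfg_M Y.mod hP hd _ _ ((hm j).1 ((ht j).1 hj).1).1]
  have ha : ∀ i ∈ (cg b Y.mod hP hd).s.erase E, (od i (Z.κ - Z.r • kP Q b) : ℚ) / Z.r < 0 :=
    fun i hi => dsc_neg Z ((hm i).1 ((ht i).1 hi).1).1 ((ht i).1 hi).2
  obtain ⟨h3, h4, -, h5, -⟩ := Cfg.extr (erase_subset _ _) he (notMem_erase _ _) hZ ha
    ((insert_erase he).symm ▸ hY) (dsc_neg Y hE hx.nE) hM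
  have hδ := dlV_pos Y.mod.free hE.dvs
  have h1 := dim_cen_one hE.dvs hd h
  refine ⟨?_, ?_, ?_⟩
  · have h6 : 2 * (gn (cen Y.H E) (Rf E) : ℤ) - 2 ≤
        bnum [up (cen Y.H E) ((plV E).rs (kP Q b + dv Q E))] :=
      adj_up (q := plV E) (Cyc.lnr_plV E) (Cyc.surj_plV E) hE b (Pl.free_rs Y.mod.free)
        (car_rs Br.free_oP (car_of_On hP)) h1
    rw [cfg_k Y.mod hP hd _ _ hE, cfg_M Y.mod hP hd _ _ hE, ← dg_add, cfg_δ,
      dg_cen_one Y.mod.free h, mul_comm, mul_left_inj' hδ.ne'] at h5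
    choose! z hz using Cfg.Sol.int (erase_subset _ _) hZ ha (Cfg.dv_k (erase_subset _ _)) hZ
    refine exists_rat h1 (by omega) (a := up _ ((plV E).rs
      (-(kP Q b + ∑ i ∈ (cg b Y.mod hP hd).s.erase E, z i • dv Q i)))) ?_
    refine mul_left_cancel₀ hδ.ne' ?_
    rw [← dg_cen_one Y.mod.free h, dg_neg, dg_add, dg_sum, mul_one, neg_eq_iff_eq_neg]
    rw [Cfg.ev, sum_congr rfl fun i hi => by rw [hz i hi, cfg_M Y.mod hP hd _ _ hE],
      cfg_k Y.mod hP hd _ _ hE, cfg_δ] at h4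
    simp only [dg_zsmul]
    exact_mod_cast h4
  · have h6 := ev_car Y.mod hP hd Z.mod hx.car hQ ht (Br.kP_mem b) Z.car Z.r_pos (eqOn_κ Z hQ) hE
    rw [Cfg.ev, cfg_k Y.mod hP hd _ _ hE, cfg_δ] at h4
    rw [Cfg.ev, h4, eq_div_iff (by exact_mod_cast Z.r_pos.ne')] at h6
    have h7 : -dlV Y.H E * Z.r = dg E (Z.κ :: replicate d Y.H) := by exact_mod_cast h6
    rw [← h7]
    ring
  · rw [div_eq_iff (by exact_mod_cast Y.r_pos.ne')] at h3
    have h6 : od E (Y.κ - Y.r • kP Q b) = -1 * Y.r := by exact_mod_cast h3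
    have h7 := od_κ_eq Z hE hZE
    simp only [map_sub, map_nsmul, nsmul_eq_mul] at h6 h7 ⊢
    push_cast
    linear_combination (Y.r : ℤ) * h7 - (Z.r : ℤ) * h6

theorem j1Stmt : J1Stmt := fun _ _ _ _ b Z Y E hx h => by
  have hE : Dvs E := ((hx.prm E).2 (Or.inr rfl)).dvs
  obtain ⟨⟨t, h1, h2⟩, h3, h4⟩ := j1 (d := 2) (dim_basis b) hx (dim_ctr Y.mod.free hE ▸ h)
  refine ⟨?_, mul_left_cancel₀ (dlV_pos Y.mod.free hE).ne' ?_, h4⟩
  · rw [← cl_eq_cen Y.mod.free] at h1 h2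
    exact ⟨((RatFunc.algEquivOfTranscendental t h1).trans
      ((IntermediateField.equivOfEq h2).trans IntermediateField.topEquiv)).symm⟩
  · rw [← dg_eq_fdg Y.mod.free hE h, dg_neg, h3, neg_neg, mul_comm]

end Crest.Agent.X262.Bnd79
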